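import Vale.Agent.P014T.Zd.St
import Vale.Agent.P004F.St

/-! # P014T, block Zd: the export -/

open Complex UpperHalfPlane CongruenceSubgroup
open scoped Real NumberTheorySymbols Classical

noncomputable section

namespace Vale.Agent.P014T.Zd

open P004Z P004Z.Ar
open P004N (ALw)
open P004Z.H (PlC iE)
open Z (Cov L0)
open Vale.Agent.P004M.TE

open P004F in
/-- the Heegner point of the frame -/
def pK {e : Crv} (b : Fld e) (T : Finset P022.GQ) : Pt e.A e.B :=
  ∑ g ∈ T, sd (P004T.ds e.δ) g • ga g (b.Y e.δ)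

/-- **the export of the block** -/
def GZF : Prop := ∀ (e : P004F.Crv) (b : P004F.Fld e) (ε c : ℝ) V T, ALw e.N e.N e.G ε →
  ε * (eps e.δ * J(e.N | e.δ) : ℤ) = 1 → Cov e.Λ c → PlC V → b.Tv e.δ T →
  (2 * e.w ^ 2 * c * H.hh (Gl.vq V) (pK b T) : ℝ) =
    π ^ 2 * e.δ * (√b.δ' : ℝ) * L1d e.a e.δ * L0 e.a (e.δ * b.δ')

end Vale.Agent.P014T.Zd
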