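import Vale.Agent.P014T.Zd.St
import Vale.Agent.P014T.Z.Aro
import Vale.Agent.P004Z.Ar.All

/-! # P014T, block Zd, row AROD: the arithmetic side for a twist -/

set_option autoImplicit false
set_option linter.all false

open UpperHalfPlane CongruenceSubgroup Real
open scoped MatrixGroups Classical NumberTheorySymbols

noncomputable section

namespace Vale.Agent.P014T.Zd.Ar0

open P004Z P004Z.Ar P014T.Z
open P004N (S2 QE RN)
open Vale.Agent.P022.H218.L3 Vale.Agent.P004H.H666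
open Vale.Agent.P022K.F0.Cf (od ev)
open Vale.Agent.P004Z.Fin (Pk Ov Far)
open Vale.Agent.P004Z.H (sp Fo GG tt PlC)

variable {N : ℕ} [NeZero N] {a : ℕ → ℤ} {δ δ' : ℕ} {β : ℤ} {s : Finset ℍ}

/-- the standing hypotheses of the local symbols hold -/
theorem cxd (D : Pz N a) (hd : Dat N δ δ' β) (hs : Reps (Gamma0 N) (Bd N δ δ' β) s) :
    ∃ θ xm, θ ^ 2 = -(δ * (δ * δ' : ℕ) : ℂ) ∧ Cx D δ (Bd N δ δ' β) s θ xm := by
  have hN := NeZero.pos N
  obtain ⟨xm, p1, p2, p3⟩ := pk N a D hN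
  obtain ⟨θ, t1, t2⟩ : ∃ θ : ℂ, θ ^ 2 = -(δ * (δ * δ' : ℕ) : ℂ) ∧ H.cj θ = -θ :=
    ⟨(δ * √δ' : ℝ) * Complex.I, by
      rw [mul_pow, Complex.I_sq, ← Complex.ofReal_pow, mul_pow, sq_sqrt (Nat.cast_nonneg _)]
      push_cast
      ring, by simp⟩
  exact ⟨θ, xm, t1, hN, hd.ok.one.trans' one_pos, hs, (bdv N δ δ' β hd).2.1 s hs,
    (divs N δ hd.ok _ _).1, t2, fun σ => sq_eq_sq_iff_eq_or_eq_neg.1 (by
      rw [← map_pow, t1]; simp), act_row N δ hd.ok, fun σ c r χ A e τ => A.zp _ _ τ θ t1 e,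
    p1, p2, p3, rel, fun_row, psi, Bo.gu, deg (ae plc fun_row) ws_row, cst, ratl⟩

/-- the generating series -/
theorem gen : GENX := genx hdiv divs adj (ae plc fun_row) prt

theorem egd {G : ℍ → ℂ} (D : Pz N a) (rn : RN N G a) (o : Ok N δ) {c : PP N}
    (hc : IsInt c) {n : ℍ → ℤ} (e : cs n = Zc δ c) : Eg N δ n := by
  obtain ⟨k, -, e'⟩ := ex_nc (δ := δ) hc
  obtain rfl : n = ∑ i ∈ c.support, k i • Zd N δ i.1 i.2 :=
    funext fun z => Int.cast_injective (congrFun (e.trans e'.symm) z)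
  exact ⟨e ▸ (gen N δ G a D rn o).1 c, fun σ c r χ A τ => by
    simp only [Finset.sum_apply, Pi.smul_apply, A.zd, smul_eq_mul, Finset.mul_sum, mul_left_comm]⟩

theorem core {G : ℍ → ℂ} (D : Pz N a) {V : ℕ → AbsoluteValue ℂ ℝ} {m : ℕ} (rn : RN N G a)
    (hd : Dat N δ δ' β) (hs : Reps (Gamma0 N) (Bd N δ δ' β) s) (hV : PlC V) (dg : Dg D m) :
    ∃ (l : D.E →+ ℝ) (ι : ℕ → ℕ → ZMod (2 * N) → ℚ), (∀ b ∈ s, D.pi b ∈ Fo D.A D.B) ∧
      Hp V (yK D (Bd N δ δ' β) s) l ∧ Lgs δ δ' ι ∧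
      (∀ c Φ, IsInt c → Off δ δ' c → Prin (Gamma0 N) (Zc δ c) → Green (Gamma0 N) (Zc δ c) Φ →
        evd s (Bd N δ δ' β) Φ + pr (lg ι) c = 0) ∧
      ∀ (P : FreeAlgebra ℤ (PA (2 * N * δ))) c Φ Φ', (∀ g c, S2 N g → QE g c → ∃ κ : ℂ,
          FreeAlgebra.lift ℤ (fun l : PA (2 * N * δ) => TcL l.1) P c = fun n => κ * a n) →
        IsInt c → Off δ δ' c → Green (Gamma0 N) (Zc δ c) Φ →
        Green (Gamma0 N) (Zc δ (Gl.act δ P c)) Φ' →
        m * (evd s (Bd N δ δ' β) Φ' + pr (lg ι) (Gl.act δ P c)) =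
          -2 * (FreeAlgebra.lift ℤ (fun l : PA (2 * N * δ) => a l.1) P : ℤ) *
            pr (fun n r => ws (4 * N) (cs (Zd N δ n r)) (lC D l ∘ D.I)) c := by
  obtain ⟨m0, hm⟩ := dg
  have hN := NeZero.pos N
  have h4 : 0 < 4 * N := by omega
  obtain ⟨θ, xm, -, X⟩ := cxd D hd hs
  have ov := fun (q : ℕ) (hq : q.Prime) => ov_of hV hq
  have ov' : ∀ q, q.Prime → Ov (cV (V q)) q := fun q hq => (ov q hq).comp _
  choose! I i1 i2 using fun q hq => ex_I Fin.fn hd hs.sup X.deg X.pk (ov q hq)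
  choose! I' i3 i4 using fun q hq => ex_I Fin.fn hd hs.sup X.deg X.pk (ov' q hq)
  choose! ρ hρ using fun (p : ℕ) (hp : p.Prime) => Module.Projective.exists_dual_eq_one ℚ
    (x := log p) (log_pos (by exact_mod_cast hp.one_lt)).ne'
  obtain ⟨l, Y, l0, l1, -, l2⟩ := Gl.globx hV D.par.disc s (Bd N δ δ' β) D.pi
    (fun b hb => X.fo_b hb) X.deg
  have l3 : ∀ u, lC D l u = l (D.ex u) := fun _ => rfl
  have ki : D.Ki (lC D l) := fun u hu => by rw [l3, (D.ker u).2 hu, map_zero, Complex.ofReal_zero]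
  have inv : ∀ l, D.Ki l → Inv N (l ∘ D.I) := fun l hl γ hγ z => by
    simpa [sub_eq_zero] using hl _ (D.inv γ hγ z)
  obtain ⟨-, g4, g5⟩ := (gen N δ G a D rn hd.ok).2 _ ki
  have of := Fin.off divs bdv N δ δ' β s hd hs.sup
  let ι : ℕ → ℕ → ZMod (2 * N) → ℚ := fun q n r =>
    if q.Prime ∧ ¬ IsSquare (δ * δ' * n) then ρ q ((I q + I' q) (Zd N δ n r)) else 0
  have ι0 : ∀ q n r, (q.Prime → ¬ IsSquare (δ * δ' * n) → ∀ V, Ov V q → Far V s (Zd N δ n r)) →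
      ι q n r = 0 := fun q n r h => ite_eq_right_iff.2 fun e => by
    rw [AddMonoidHom.add_apply, i1 q e.1 _ (h e.1 e.2 _ (ov q e.1)),
      i3 q e.1 _ (h e.1 e.2 _ (ov' q e.1)), add_zero, map_zero]
  have lgs : Lgs δ δ' ι := ⟨fun n r => by
      by_cases e : IsSquare (δ * δ' * n)
      · exact Set.finite_empty.subset fun p hp => hp (ι0 p n r fun _ h => absurd e h)
      · exact (of n r e).2.subset fun p hp => by_contra fun h => hp (ι0 p n r fun _ _ V hV =>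
          by_contra fun h' => h ⟨V, hV, h'⟩),
    fun p n r h => (ite_ne_right_iff.1 h).1.1,
    fun p n r h => ι0 p n r fun _ e V hV => (of n r e).1 p V hV (Or.inl h),
    fun p n r h => ι0 p n r fun _ e V hV => (of n r e).1 p V hV (Or.inr h)⟩
  have fin : ∀ c ∈ IO δ δ', ∀ n, cs n = Zc δ c → ∀ k : ℕ, 0 < k →
      ∀ u, D.ex u ∈ Fo D.A D.B → (∀ t, D.Nc t → D.Nc (t + u) →
        ∃ Ψ, Un N ((k : ℤ) • n - (D.pb (t + u) - D.pb t)) 0 Ψ) →
      ∀ Φ, Green (Gamma0 N) (Zc δ c) Φ →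
        k * (evd s (Bd N δ δ' β) Φ + pr (lg ι) c) = -2 * lC D l u := by
    intro c hc n e k k0 u f2 hu Φ g
    have hn := egd D rn hd.ok hc.1 e
    obtain ⟨j, j1, j2⟩ := ex_nc (δ := δ) hc.1
    obtain rfl : n = ∑ i ∈ c.support, j i • Zd N δ i.1 i.2 :=
      funext fun z => Int.cast_injective (congrFun (e.trans j2.symm) z)
    have far : ∀ V, (∀ i ∈ c.support, Far V s (Zd N δ i.1 i.2)) →
        Far V s (∑ i ∈ c.support, j i • Zd N δ i.1 i.2) := fun V h =>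
      Far.sum _ fun i hi => (h i hi).smul _
    have fs : {p : Nat.Primes | ∃ V, Ov V p ∧
        ¬ Far V s (∑ i ∈ c.support, j i • Zd N δ i.1 i.2)}.Finite :=
      ((c.support.finite_toSet.biUnion fun i hi => (of i.1 i.2 (hc.2 i hi)).2).preimage
        Subtype.val_injective.injOn).subset fun p ⟨V, h1, h2⟩ => by_contra fun h => h2
          (far V fun i hi => by_contra fun h' => h (Set.mem_biUnion hi ⟨V, h1, h'⟩))
    have n0 : ∀ b ∈ s, (∑ i ∈ c.support, j i • Zd N δ i.1 i.2) b = 0 := fun b hb =>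
      by_contra fun h => by
        have := (far _ fun i hi => (of i.1 i.2 (hc.2 i hi)).1 2 _ (ov 2 Nat.prime_two)
          (Or.inl (Or.inl rfl))).far b h b hb
        norm_num at this
    have hp := pr_lg (J := fun p => I p + I' p) hρ (ι := ι) (fun _ _ _ => rfl) lgs.fin hc.2 j1
    generalize ∑ i ∈ c.support, j i • Zd N δ i.1 i.2 = n at *
    obtain ⟨T, f1, h1, h2⟩ := D.ex_gd s f2
    obtain ⟨t, rfl⟩ := D.surj T
    have h3 := h1 (RingEquiv.refl ℂ) t (H.sp_refl _).symm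
    have h5 := h2 (RingEquiv.refl ℂ) (t + u) (by rw [H.sp_refl, map_add])
    obtain ⟨Ψ, h6⟩ := hu t h3.1 h5.1
    obtain ⟨h, h7, h8, h9⟩ := (fun_row N hN).1 _ _ h6
    have e0 : Dec D s ((k : ℤ) • n) h t u := ⟨h7, h8, h3.1, h5.1, fun b hb =>
      ⟨h3.2 b hb, h5.2 b hb, by simp [n0 b hb]⟩, fun τ => by simp [(h9 τ).1]⟩
    have k1 : (k : ℝ) ≠ 0 := Nat.cast_ne_zero.2 k0.ne'
    have rt : ∀ q : ℕ, q.Prime → ∃ x : ℚ, (I q + I' q) n = x * log q := fun p hp => by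
      obtain ⟨q, e1⟩ := X.rat e0 (hn.smul k) h1 h2 f1 f2 (ov p hp)
      obtain ⟨q', e2⟩ := X.rat e0 (hn.smul k) h1 h2 f1 f2 (ov' p hp)
      rw [← i2 p hp _ _ _ _ e0, map_zsmul, zsmul_eq_mul, hV.self p hp, log_inv] at e1
      rw [← i4 p hp _ _ _ _ e0, map_zsmul, zsmul_eq_mul, show cV (V p) p = (p : ℝ)⁻¹ by
        rw [← hV.self p hp]; exact congrArg (V p) (map_natCast H.cj p), log_inv] at e2
      refine ⟨-(q + q') / k, ?_⟩
      push_cast at e1 e2 ⊢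
      rw [AddMonoidHom.add_apply]
      field_simp
      linear_combination e1 + e2
    have := X.key e0 (hn.smul k) h1 h2 f1 f2 hV i2 i4 (Φ := (k : ℂ) • Φ) (by
      rw [show cs ((k : ℤ) • n) = (k : ℂ) • Zc δ c by ext; simp [cs, ← e]]
      exact green_smul g (k := k) (Nat.cast_ne_zero.2 k0.ne')) l2
    rw [hp rt, l3]
    simp only [map_zsmul] at this
    simp only [zsmul_eq_mul, ← mul_finsum, AddMonoidHom.add_apply] at this ⊢
    rw [finsum_add_distrib (fs.subset fun p hp => ⟨_, ov p p.2, mt (i1 p p.2 n) hp⟩)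
      (fs.subset fun p hp => ⟨_, ov' p p.2, mt (i3 p p.2 n) hp⟩)]
    simp only [evd, Pi.smul_apply, smul_eq_mul, mul_left_comm _ (k : ℂ), ← Finset.mul_sum] at this ⊢
    push_cast at this ⊢
    linear_combination this
  refine ⟨l, ι, fun b hb => X.fo_b hb, fun y Q e => ?_, lgs,
    fun c Φ hc ho ⟨k, n, Ψ, k0, e, m1, m2, m3⟩ g => ?_, fun P c Φ Φ' hP hc ho g g' => ?_⟩
  · obtain rfl : y = Y := Gl.iE_inj (e.trans l0.symm)
    exact l1 Q
  · obtain ⟨j, -, j2⟩ := ex_nc (δ := δ) hc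
    have := fin c ⟨hc, ho⟩ _ j2 k k0 0 (by rw [map_zero]; exact zero_mem _) (fun t _ _ =>
      ⟨Ψ, by
        rw [show (k : ℤ) • _ - (D.pb (t + 0) - D.pb t) = n from funext fun z =>
          Int.cast_injective (α := ℂ) (by rw [e, ← j2]; simp [cs])]
        exact ⟨m1, m2, fun γ hγ z => (m3 γ hγ z).trans (by simp [ee])⟩⟩) Φ g
    simpa [k0.ne'] using this
  have hc' := io_lift P c ⟨hc, ho⟩
  obtain ⟨n, j3⟩ : ∃ n, cs n = Zc δ (Gl.act δ P c) :=
    (ex_nc (δ := δ) hc'.1).elim fun j h => ⟨_, h.2⟩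
  have hn := egd D rn hd.ok hc'.1 j3
  obtain ⟨j, -, j2⟩ := ex_nc (δ := δ) hc
  obtain ⟨k, u, k0, hu⟩ := abl Bo.uni1 N G a D _ P rn ⟨2 * δ, by ring⟩ hP _ n Φ (j2 ▸ g)
    (j3.trans (j2 ▸ (g5 P c).1))
  have e : ∀ l, D.Ki l → k * ws (4 * N) (cs n) (l ∘ D.I) = m * l u := fun l hl => by
    obtain ⟨t, h1, h2⟩ := D.ex_nc u
    obtain ⟨Ψ, h3⟩ := hu t h1 h2
    have h5 := (ae plc fun_row N a D _ _ hN h3).2 l hl
    have d := fun A => Dv.mono (A := A) h4 (dvd_mul_left N 4)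
    rw [show cs ((k : ℤ) • n - (D.pb (t + u) - D.pb t)) = (k : ℂ) • cs n +
      ((-1 : ℂ) • cs (D.pb (t + u)) + cs (D.pb t)) by ext; simp [cs]; ring,
      ws_add (d _ (hn.1.smul _)) (d _ (((hm _ h2).1.smul _).add (hm _ h1).1)),
      ws_add (d _ ((hm _ h2).1.smul _)) (d _ (hm _ h1).1), ws_smul, ws_smul, ws_pb hl, ws_pb hl,
      (hm _ h1).2, (hm _ h2).2, map_add] at h5
    linear_combination h5
  have f2 : D.ex u ∈ Fo D.A D.B := by
    obtain ⟨s', hs'⟩ := (hn.1.mono h4 (dvd_mul_left N 4)).reps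
    obtain ⟨k', k2, h⟩ := lq (Λ := D.Λ) (u := m • u - k • ∑ z ∈ s', n z • D.I z) fun l hl => by
      have := e l hl
      rw [ws_reps hs' (hn.inv.mono (dvd_mul_left N 4))
        ((inv l hl).mono (dvd_mul_left N 4))] at this
      simp only [map_sub, map_nsmul, map_sum, map_zsmul]
      simp only [nsmul_eq_mul, zsmul_eq_mul, ← this, evd, Function.comp_apply, sub_self]
    rw [← D.ker, ← nsmul_eq_mul, map_nsmul, map_sub, nsmul_sub, sub_eq_zero, map_nsmul, map_nsmul,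
      ← mul_nsmul, map_sum] at h
    refine D.fo_div (Nat.mul_pos m0 k2) (h ▸ nsmul_mem (nsmul_mem (sum_mem fun z hz => ?_) _) _)
    rw [map_zsmul]
    exact zsmul_mem (X.fo_n hn (hs'.sup z hz)) _
  have h1 := fin _ hc' n j3 k k0 u f2 hu Φ' g'
  have h2 := e _ ki
  rw [j3, (g5 P c).2, ← g4] at h2
  refine mul_left_cancel₀ (Nat.cast_ne_zero.2 k0.ne' : (k : ℂ) ≠ 0) ?_
  linear_combination m * h1 + 2 * h2

end Vale.Agent.P014T.Zd.Ar0

/-- **row `AROD`** -/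
theorem Vale.Agent.P014T.Zd.arod : Vale.Agent.P014T.Zd.AROD :=
  fun _ _ _ _ D _ _ _ _ _ _ rn hd hs hV dg =>
    let ⟨l, ι, _, h1, h2, h3, h4⟩ := Vale.Agent.P014T.Zd.Ar0.core D rn hd hs hV dg
    ⟨l, ι, h1, h2, h3, h4⟩
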