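import Vale.Agent.P014T.Zd.Lin
import Vale.Agent.P004Z.Bo.Bor

/-! # P014T, exact Gross-Zagier at `δ > 1`: the generating series is the Shintani lift -/

set_option autoImplicit false
set_option linter.all false

open Complex UpperHalfPlane MeasureTheory Filter Topology CongruenceSubgroup
open scoped Real MatrixGroups ComplexConjugate NumberTheorySymbols

noncomputable section

namespace Vale.Agent.P014T.Zd.Li

open P004N (S2 QE TE RN)
open P004Z P004Z.Lf P004Z.Gl P014T.Gx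

variable {N : ℕ} [NeZero N] {δ δ' : ℕ} {β : ℤ} {G : ℍ → ℂ} {a : ℕ → ℤ} {s : Finset ℍ}
  {κ ι : ℕ → ℕ → ZMod (2 * N) → ℚ}

theorem far (h : Dat N δ δ' β) (hs : Reps (Gamma0 N) (Bd N δ δ' β) s) {c : PP N}
    (ho : Off δ δ' c) : ∀ z ∈ s, ∀ i ∈ c.support, ∀ l, disc l = -((δ : ℤ) * i.1) → evq l z ≠ 0 :=
  fun z hz i hi l h1 h2 => ho i hi ((bdv N δ δ' β h).2.2 z (hs.sup z hz) i.1 l h1 h2)

theorem pet_conj (N : ℕ) (G : ℍ → ℂ) : conj (pet2 N G G) = pet2 N G G := by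
  rw [pet2]
  refine ((starAddEquiv (R := ℂ)).map_finsum _).trans (finsum_congr fun q => ?_)
  refine integral_conj.symm.trans (congrArg _ (funext fun z => ?_))
  simp only [petersson, map_mul, map_div₀, map_pow, map_zpow₀, conj_conj, conj_ofReal]
  ring

/-- the height formula for complex coefficients -/
theorem htc (h : Dat N δ δ' β) (hs : Reps (Gamma0 N) (Bd N δ δ' β) s) {x : Cf N} {m k : ℂ}
    {P : FreeAlgebra ℤ (PA (2 * N * δ))} (ht : ∀ c Φ Φ', IsInt c → Off δ δ' c →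
      Green (Gamma0 N) (Zc δ c) Φ → Green (Gamma0 N) (Zc δ (act δ P c)) Φ' →
      m * (evd s (Bd N δ δ' β) Φ' + pr (lg ι) (act δ P c)) = k * pr x c) {c : PP N}
    (hc : c ∈ MM N δ δ') : ∃ Φ, Green (Gamma0 N) (Zc δ (act δ P c)) Φ ∧
      m * (evd s (Bd N δ δ' β) Φ + pr (lg ι) (act δ P c)) = k * pr x c := by
  let R : PP N → Prop := fun c => ∃ Φ, Green (Gamma0 N) (Zc δ (act δ P c)) Φ ∧
    m * (evd s (Bd N δ δ' β) Φ + pr (lg ι) (act δ P c)) = k * pr x c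
  have R0 : R 0 := by
    refine ⟨0, ?_, by simp [evd, pr_zero]⟩
    rw [map_zero]
    exact green_zero
  have R1 : ∀ (j : ℂ) (c c' : PP N), c ∈ MM N δ δ' → c' ∈ MM N δ δ' → R c → R c' →
      R (j • c + c') := by
    rintro j c c' hc hc' ⟨Φ, h1, h2⟩ ⟨Φ', h1', h2'⟩
    obtain ⟨Ψ, h3, h4⟩ := green_comb j h1 h1'
    refine ⟨Ψ, by rw [map_add, map_smul, zc_comb]; exact h3, ?_⟩
    have : evd s (Bd N δ δ' β) Ψ = j * evd s (Bd N δ δ' β) Φ + evd s (Bd N δ δ' β) Φ' := by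
      simp only [evd, Finset.mul_sum, ← Finset.sum_add_distrib]
      refine Finset.sum_congr rfl fun z hz => ?_
      rw [h4 z (zc_zero (far h hs (mm_off (mm_act P c hc)) z hz))
        (zc_zero (far h hs (mm_off (mm_act P c' hc')) z hz))]
      ring
    rw [this, map_add, map_smul, pr_add, pr_add, pr_smul, pr_smul]
    linear_combination j * h2 + h2'
  change R c
  induction hc using Submodule.span_induction with
  | mem c hc =>
    have hm : c ∈ MM N δ δ' := Submodule.subset_span hc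
    obtain ⟨a1, x1, h1⟩ := g2.2.2.2.2.2 N δ h.ok c (mm_adm hm)
    obtain ⟨a2, x2, h2⟩ := g2.2.2.2.2.2 N δ h.ok _ (mm_adm (mm_act P c hm))
    obtain ⟨Φ, g1, -⟩ := g4.1 N δ h.ok _ _ _ h1
    obtain ⟨Φ', g2, -⟩ := g4.1 N δ h.ok _ _ _ h2
    obtain ⟨i, -, rfl⟩ := hc
    exact ⟨Φ', g2, ht _ Φ Φ' (bb_int i) (mm_off hm) g1 g2⟩
  | zero => exact R0
  | add c c' hc hc' k k' => simpa using R1 1 c c' hc hc' k k'
  | smul k c hc t => simpa using R1 k c 0 hc (zero_mem _) t R0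

/-- **the generating series of the heights is the Shintani lift** -/
theorem mainx (h : Dat N δ δ' β) (hG : RN N G a) (hs : Reps (Gamma0 N) (Bd N δ δ' β) s)
    {ℓ : Cf N → ℂ} (hκ : Lgs δ δ' κ) (hι : Lgs δ δ' ι)
    (K0 : ∀ a x c (Φ : ℍ → ℂ), Harm δ a x c → Off δ δ' c →
      (∀ z ∈ s, Tendsto (reg δ a x z) atTop (𝓝 (Φ z))) →
      evd s (Bd N δ δ' β) Φ = pr (lg κ) c + ℓ x) (K1 : ℓ 0 = 0) {C : ℂ}
    (K2 : ∀ x, IsS δ x → ∀ k : ℂ, (∀ z, shi (δ * δ') (β : ZMod (2 * N)) x z = k * G z) →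
      ℓ x = -conj (k * C))
    (H0 : ∀ c Φ, IsInt c → Off δ δ' c → Prin (Gamma0 N) (Zc δ c) → Green (Gamma0 N) (Zc δ c) Φ →
      evd s (Bd N δ δ' β) Φ + pr (lg ι) c = 0)
    {x : Cf N} (hx : IsS δ x) (he : Eig δ (2 * N * δ) a x) {m : ℂ}
    {P : FreeAlgebra ℤ (PA (2 * N * δ))} (P0 : lm a P ≠ 0) (ht : ∀ c Φ Φ', IsInt c → Off δ δ' c →
      Green (Gamma0 N) (Zc δ c) Φ → Green (Gamma0 N) (Zc δ (act δ P c)) Φ' →
      m * (evd s (Bd N δ δ' β) Φ' + pr (lg ι) (act δ P c)) = -2 * lm a P * pr x c) :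
    (2 * pet2 N G G) • x = (m * conj C) • sn (δ * δ') (β : ZMod (2 * N)) G := by
  have hN := hG.pos
  have ok := h.ok
  have u := du h
  have := ok.one
  have lift : ∀ a' x' c, Harm δ a' x' c → Off δ δ' c → ∃ Φ, Green (Gamma0 N) (Zc δ c) Φ ∧
      evd s (Bd N δ δ' β) Φ = pr (lg κ) c + ℓ x' := fun a' x' c k ho => by
    obtain ⟨Φ, h1, h2⟩ := g4.1 N δ ok a' x' c k
    exact ⟨Φ, h1, K0 a' x' c Φ k ho fun z hz => h2 z (far h hs ho z hz)⟩
  obtain ⟨hd, ed⟩ := lgs_add hκ hι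
  have key := keyx h hG hx he (t := conj m * cS N δ (δ * δ') * C / 2) fun y hy ey => by
    obtain ⟨c, hc, hcy⟩ := ex_c h hG hy ey
    have hk := pr_act ok hy ey P c 1 (by simpa using hcy)
    have hc' := mm_act P c hc
    obtain ⟨Φ, g1, g2'⟩ := htc h hs ht hc
    obtain ⟨a', x', h'⟩ := g2.2.2.2.2.2 N δ ok _ (mm_adm hc')
    obtain ⟨Φ', g3, g5⟩ := lift _ _ _ h' (mm_off hc')
    obtain ⟨D, hD⟩ := Bo.gu N _ Φ Φ' hN g1 g3
    have e1 : evd s (Bd N δ δ' β) Φ' = evd s (Bd N δ δ' β) Φ := by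
      have h0 : ∑ z ∈ s, (Bd N δ δ' β z : ℂ) = 0 := by
        exact_mod_cast (bdv N δ δ' β h).2.1 s hs
      rw [evd, evd, Finset.sum_congr rfl fun z hz => by
        rw [hD z (zc_zero (far h hs (mm_off hc') z hz)), mul_add], Finset.sum_add_distrib,
        ← Finset.sum_mul, h0, zero_mul, add_zero]
    have e2 : x' = (lm a P : ℂ) • y := Wl.eq_of_B g2.2.1 ok _ hy h'.s fun z hz => by
      rw [B, ← (g2.2.2.2.2.1 N δ ok _ _ _ h').2 z hz, hk z hz, mul_one]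
    have e3 := K2 x' h'.s _ (congrFun (eigx u (mt h) hG (S := 2 * N * δ) (by positivity) h'.s (by
      rw [e2, ← add_zero (_ • y)]
      exact eig_comb _ ey fun l _ _ => by funext n r; simp [TT])))
    have f : pr (lg (κ + ι)) (act δ P c) = 0 := fin0 h hG hd (fun c hc ho => by
      obtain ⟨a', ha'⟩ := id hc
      obtain ⟨Φ, h1, h2⟩ := lift _ _ _ ha' ho
      have h3 := H0 c Φ (WH.int hc) ho (Bo.bor g4.2.1 N δ ok c hc) h1
      rw [h2, K1, add_zero] at h3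
      rw [ed, add_pr, h3]) hy ey hc' hk
    rw [ed, add_pr] at f
    rw [← e1, g5, add_right_comm, f, zero_add, e3, hcy _ hx, e2, B_conj y] at g2'
    have g6 := congrArg conj g2'
    simp only [map_mul, map_neg, conj_conj, map_intCast, map_ofNat, Pi.smul_apply,
      smul_eq_mul] at g6
    refine mul_left_cancel₀ (mul_ne_zero (Int.cast_ne_zero.2 P0 : (lm a P : ℂ) ≠ 0) two_ne_zero) ?_
    linear_combination g6
  have n := cS_ne u
  have n' := pet2_ne hG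
  rw [key, smul_smul]
  congr 1
  rw [show conj m * cS N δ (δ * δ') * C / 2 / (cS N δ (δ * δ') * pet2 N G G) =
    conj m * C / (2 * pet2 N G G) by field_simp]
  simp only [map_div₀, map_mul, map_ofNat, conj_conj, pet_conj]
  field_simp

end Vale.Agent.P014T.Zd.Li
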