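import Vale.Agent.P014T.Zd.St
import Vale.Agent.P014T.Zd.Mn
import Vale.Agent.P014T.Z.Wn
import Vale.Agent.P004Z.Ar.All

/-! # P014T, block Zd: the glue (rows `MAIND`, `GZD`) -/

set_option autoImplicit false
set_option linter.all false

open Complex UpperHalfPlane MeasureTheory Filter Topology CongruenceSubgroup
open scoped Real MatrixGroups ComplexConjugate NumberTheorySymbols Classical

noncomputable section

namespace Vale.Agent.P014T.Zd

open P004Z P004Z.Ar P014T.Gx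
open P004N (S2 QE TE RN Pr ALw EF)
open P004Z.Lf (sn)
open P004Z.H (PlC iE)
open Z (Dg Cov ix L0 Hp lC yK DEGV)
open Vale.Agent.P004M.TE

namespace Gu

theorem l1_conj (a : ℕ → ℤ) (δ : ℕ) : conj (L1d a δ) = L1d a δ := by
  rw [L1d, ← integral_conj]
  congr 1
  funext y
  rw [map_mul, conj_ofReal, tw, conj_tsum]
  congr 2
  funext n
  rw [map_mul, map_intCast, ee, ← exp_conj]
  simp only [map_mul, conj_ofReal, conj_I, map_natCast, map_ofNat]
  congr 2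
  ring

variable {N : ℕ} [NeZero N] {a : ℕ → ℤ} {G : ℍ → ℂ} {δ d : ℕ} {β : ℤ} {D : Pz N a}

theorem ki (l : D.E →+ ℝ) : D.Ki (lC D l) := fun u hu => by simp [lC, (D.ker u).2 hu]

theorem gen (hG : RN N G a) (ok : Ok N δ) {l : ℂ →+ ℂ} (hl : D.Ki l) : Gen δ a (xd D δ l) :=
  ((genx hdiv divs adj (ae plc fun_row) prt N δ G a D hG ok).2 l hl).1

theorem rho (h : Dat N δ d β) :
    (β : ZMod (2 * N))⁻¹ * (δ * d : ℕ) = -((β * δ : ℤ) : ZMod (2 * N)) := by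
  have e := (ZMod.intCast_zmod_eq_zero_iff_dvd _ (2 * N)).2
    ((show ((2 * N : ℕ) : ℤ) ∣ 16 * N from ⟨8, by push_cast; ring⟩).trans h.rt)
  have i := ZMod.inv_mul_of_unit _ (Li.du h).un
  push_cast at e ⊢
  linear_combination (β : ZMod (2 * N))⁻¹ * δ * e - β * δ * i

/-- the Gauss sums -/
theorem gau (h : Dat N δ d β) :
    Complex.I * eps (δ * d) * conj (gs δ) * gs (δ * d) = eps δ * δ * (√(d : ℝ) : ℝ) * eps δ := by
  have o := (Li.du h).ok1
  have s : ((√(δ : ℝ) : ℝ) : ℂ) ^ 2 = δ := by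
    rw [← ofReal_pow, Real.sq_sqrt (by positivity)]; rfl
  have m := h.m8
  have m4 := Nat.mul_mod δ d 4
  have o2 := Nat.odd_iff.1 h.ok.odd
  rw [Gq.gs_val o.odd o.sq, Gq.gs_val h.ok.odd h.ok.sq, eps, eps, Gq.J_neg_one o.odd,
    Gq.J_neg_one h.ok.odd, Gq.e4, Gq.e4, Nat.cast_mul, Real.sqrt_mul (by positivity), ← s]
  rw [show d % 4 = 3 by omega] at m4
  by_cases k : δ % 4 = 1
  · rw [k] at m4
    simp only [if_pos k, if_neg (show ¬ δ * d % 4 = 1 by omega), map_mul, conj_ofReal, map_one]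
    push_cast
    linear_combination -(√(δ : ℝ) : ℝ) ^ 2 * (√(d : ℝ) : ℝ) * I_sq
  · rw [show δ % 4 = 3 by omega] at m4
    simp only [if_neg k, if_pos (show δ * d % 4 = 1 by omega), map_mul, conj_ofReal, conj_I]
    push_cast
    linear_combination -(√(δ : ℝ) : ℝ) ^ 2 * (√(d : ℝ) : ℝ) * I_sq

end Gu

open Gu

/-- **row `MAIND`** -/
theorem maind (hK : KERD) : MAIND := by
  intro N _ G a D δ d β s V m l ι hG h hs A
  have hN := hG.pos
  have := h.ok.one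
  have := Nat.pos_of_ne_zero h.sq.ne_zero
  have g := gen (D := D) hG h.ok (ki l)
  obtain ⟨P, P0, hP⟩ := proj N (2 * N * δ) G a hG (by positivity) ⟨2 * δ, by ring⟩
  obtain ⟨κ, ℓ, hκ, K0, K1, K2⟩ := hK N δ d β s h hs
  have r0 : ((√(N * δ * d : ℝ) : ℝ) : ℂ) ≠ 0 :=
    ofReal_ne_zero.2 (Real.sqrt_ne_zero'.2 (by positivity))
  have key := Li.mainx h hG hs hκ A.lgs K0 K1
    (C := eps δ * gs δ * L1d a δ / (√(N * δ * d : ℝ) : ℝ)) (fun x hx k e => by
      rw [K2 x hx G a k ⟨hG.pos, hG.s2, hG.qe, hG.one, hG.te⟩ e]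
      congr 2
      ring) A.prin (Gl.isS_gen g2.2.2.1 (Bo.bor g4.2.1) h.ok g) g.eig P0
    fun c Φ Φ' => A.ht P c Φ Φ' hP
  rw [mul_right_comm, mul_comm (2 * pet2 N G G), mul_smul, key, smul_smul]
  congr 1
  simp only [map_div₀, map_mul, map_intCast, conj_ofReal, l1_conj]
  field_simp

/-- **row `GZD`** -/
theorem gzd (hD : DEGV) (hA : AROD) (hM : MAIND) : GZD := by
  intro N G a D δ d β ε s c V y hG h hAL hε hs hc pl hy
  have : NeZero N := ⟨hG.pos.ne'⟩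
  have u := Li.du h
  obtain ⟨m, m0, m1⟩ := deg (ae plc fun_row) Ar.ws_row N a D hG.pos
  obtain ⟨l, ι, A⟩ := hA N G a D δ d β s V m hG h hs pl ⟨m0, m1⟩
  obtain ⟨β', b1, b2⟩ := H.ex_bil _ (H.hh_par (a := D.A) (b := D.B) (Gl.pl_vq pl) (by
    simp only [map_intCast]
    exact_mod_cast mul_ne_zero (by norm_num) D.par.disc))
  have e2 : l (yK D (Bd N δ d β) s) = 2 * H.hh (Gl.vq V) y := by
    rw [← hy, A.hp _ _ hy, ← b1, b2]
  have e3 : evd s (Bd N δ d β) (lC D l ∘ D.I) = (l (yK D (Bd N δ d β) s) : ℝ) := by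
    simp only [evd, yK, map_sum, map_zsmul, zsmul_eq_mul]
    push_cast
    rfl
  have g := gen (D := D) hG h.ok (ki l)
  obtain ⟨η, hη⟩ : ∃ η : ℤ, ε = η ∧ η * (eps δ * J(N | δ)) = 1 := by
    rcases Int.isUnit_iff.1 (show IsUnit (eps δ * J(N | δ)) from
      (Int.isUnit_iff.2 (jacobiSym.eq_one_or_neg_one (by simp))).mul (Int.isUnit_iff.2
        (jacobiSym.eq_one_or_neg_one (by rw [Int.gcd_natCast_natCast]; exact h.ok.cop)))) with
      e | e <;> rw [e] at hε ⊢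
    · exact ⟨1, by simpa using hε, rfl⟩
    · exact ⟨-1, by push_cast at hε ⊢; linarith, rfl⟩
  obtain ⟨C, hC⟩ := (prt.2 N G a D hG).2 ε hAL
  have d1 : (δ : ℤ) ≠ 0 := Int.natCast_ne_zero.2 h.ok.sq.ne_zero
  have e4 := (wn0 Z.Wn.ix_row.2 h.ok d1 (show (d : ℤ) % 8 = 7 by exact_mod_cast h.m8)
    (by push_cast; ring) hs (F := lC D l ∘ D.I) fun γ hγ z => sub_eq_zero.1
      (((lC D l).map_sub _ _).symm.trans (ki l _ (D.inv γ hγ z)))).2 ((bdv N δ d β h).2.1 s hs)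
    η (lC D l C) fun z z' e => by
      rw [Function.comp, Function.comp, hC z z' e, hη.1, map_add, ofReal_intCast, ← zsmul_eq_mul,
        map_zsmul, zsmul_eq_mul]
  rw [← Int.cast_mul, hη.2, ← Bd, e3, e2] at e4
  have e5 := congrFun (congrFun (hM N G a D δ d β s V m l ι hG h hs A) (δ * d))
    ((β : ZMod (2 * N))⁻¹ * (δ * d : ℕ))
  simp only [Pi.smul_apply, smul_eq_mul, sn_co u hG.s2 hG.qe] at e5
  rw [rho h, g.sym, xd, e4] at e5
  have e6 := hD N G a D m c hG ⟨m0, m1⟩ hc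
  have e7 := gau h
  have e8 := Gl.eps_sqC δ
  have := h.ok.one
  have := Nat.pos_of_ne_zero h.sq.ne_zero
  have := hG.pos
  have n1 : ((√(N * δ * d : ℝ) : ℝ) : ℂ) ≠ 0 :=
    ofReal_ne_zero.2 (Real.sqrt_ne_zero'.2 (by positivity))
  have n3 : (m : ℂ) ≠ 0 := Nat.cast_ne_zero.2 m0.ne'
  rw [show ((N * (δ * d) : ℕ) : ℝ) = N * δ * d by push_cast; ring] at e5
  push_cast at e5 ⊢
  refine mul_left_cancel₀ (mul_ne_zero n1 n3) ?_
  rw [L0]
  generalize ((√(N * δ * d : ℝ) : ℝ) : ℂ) = r at *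
  generalize (∫ y in Set.Ioi (0 : ℝ), tw a (δ * d) (Complex.I * y)) = L at *
  linear_combination π ^ 2 * eps δ * e5 + 2 * r * H.hh (Gl.vq V) y * e6 +
    π ^ 2 * m * r * L1d a δ * L * (eps δ * eps δ) * e7 +
    (π ^ 2 * m * r * L1d a δ * L * δ * (√(d : ℝ) : ℝ) * (eps δ * eps δ + 1) -
      8 * π ^ 2 * r * pet2 N G G * ix N * H.hh (Gl.vq V) y) * e8

end Vale.Agent.P014T.Zd
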