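import Vale.Agent.P004Z.Kf.Ker

/-! # P014T, block GZD: the kernel with its constants -/

set_option linter.all false

open Complex MeasureTheory Filter Topology Set
open scoped Real ComplexConjugate NumberTheorySymbols UpperHalfPlane

noncomputable section

namespace Vale.Agent.P014T.Zd.Kd

open P004Z P004Z.Kf P004Z.Du P004Z.Du.Pe

variable {N : ℕ} [NeZero N] {δ d M : ℕ} {β β' : ℤ} {x : Cf N}

/-- **the Petersson product with the kernel** -/
theorem fux (h : Dd N δ d M β β') (hx : IsS δ x) {G : ℍ → ℂ} {a : ℕ → ℤ} {k : ℂ}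
    (e : P004N.QE G fun n => a n) (hk : ∀ z, shi (δ * d) (β : ZMod (2 * N)) x z = k * G z) :
    pet (FK δ d β) (fn x) = conj (k * (eps δ * gs δ) *
      (∫ y in Ioi (0 : ℝ), tw a δ (I * y) * (Real.log y : ℝ)) / (√(N * (δ * d)) : ℝ)) := by
  have m := Sk.closed_FD.measurableSet
  have d0 : (0 : ℝ) < δ := Nat.cast_pos.2 h.d0
  have n : 0 < N * (δ * d) := mul_pos (NeZero.pos N) (mul_pos h.d0 h.d1)
  have i := integrable_finsetSum Finset.univ fun r _ => (h.tf r).prod hx r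
  rw [pet, setIntegral_congr_fun m (g := fun τ => ∫ s : ℝ, ∑ r, KK (N * (δ * d) * δ ^ 2) δ
    (pf δ d β r) τ s * s * (conj (fn x r τ) * (τ.im ^ (-(1 / 2) : ℝ) : ℝ))) fun τ hτ => ?_,
    integral_integral_swap i]
  · have c : (δ / √(N * (δ * d) * δ ^ 2 : ℕ) : ℂ) = ((√(N * (δ * d)) : ℝ) : ℂ)⁻¹ := by
      rw [Nat.cast_mul, Real.sqrt_mul' _ (Nat.cast_nonneg _), Nat.cast_pow, Real.sqrt_sq d0.le,
        ofReal_mul, ofReal_natCast, div_mul_cancel_right₀ (Nat.cast_ne_zero.2 h.d0.ne')]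
      push_cast
      rfl
    rw [(Kf.exp_sub _).2, integral_congr_ae (g := fun s => conj (δ / √(N * (δ * d) * δ ^ 2 : ℕ) * k *
      (J(-1 | δ) * gs δ) * (Real.exp s • (tw a δ (I * Real.exp s) * Real.log (Real.exp s)))))
      (.of_forall fun s => ?_), integral_conj, integral_const_mul, c, eps]
    · congr 1
      ring
    have y0 : 0 < (I * (δ * Real.exp s : ℝ)).im := by rw [I_mul_im, ofReal_re]; positivity
    have y : ∀ j : ℕ, 0 < ((j + I * (δ * Real.exp s : ℝ)) / δ : ℂ).im := fun j => by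
      rw [div_natCast_im, add_im, natCast_im, zero_add]; positivity
    have q : ∑ j ∈ Finset.range δ, J(-1 * j | δ) * G ⟨_, y j⟩ =
        J(-1 | δ) * gs δ * tw a δ (I * Real.exp s) := by
      rw [tw, ← tsum_mul_left]
      refine ((hasSum_sum fun (j : ℕ) _ => (e ⟨_, y j⟩).mul_left _).congr_fun fun n => ?_).tsum_eq.symm
      have := twg δ n h.dat.ok.odd h.dat.ok.sq
      have d' : (δ : ℂ) ≠ 0 := Nat.cast_ne_zero.2 h.d0.ne'
      rw [Finset.sum_congr (g := fun j : ℕ => J(j | δ) * ee ((n : ℤ) * j / δ) * (J(-1 | δ) * a n *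
        ee (n * (I * Real.exp s)))) rfl fun j _ => ?_, ← Finset.sum_mul, this]
      · push_cast
        ring
      · rw [jacobiSym.mul_left, show cexp _ = ee ((n : ℤ) * j / δ) * ee (n * (I * Real.exp s)) by
          rw [← Kf.ee_add, ee]
          congr 1
          push_cast
          field_simp]
        push_cast
        ring
    have w : ∑ j ∈ Finset.range δ, J(-1 * j | δ) * shi (δ * d) (β : ZMod (2 * N)) x ⟨_, y j⟩ =
        k * (J(-1 | δ) * gs δ * tw a δ (I * Real.exp s)) := by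
      simp only [hk, ← q, Finset.mul_sum, mul_left_comm]
    simp only [shi, Finset.sum_div, ← integral_const_mul] at w
    rw [← integral_finsetSum _ fun j _ => (integrable_finsetSum _ fun r _ =>
      th1_int hx n (y j) (ph_bd N _ _) r).const_mul _] at w
    beta_reduce
    rw [Real.log_exp, real_smul, show ∀ A B C D E : ℂ, A * k * B * (C * (D * E)) =
      A * C * E * (k * (B * D)) from fun _ _ _ _ _ => by ring, ← w, ← integral_const_mul,
      ← integral_conj]
    refine setIntegral_congr_fun m fun τ hτ => ?_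
    have v0 := hτ.2.2
    simp only [KK, (h.kk v0 _ s).tsum_eq, (th_twi n h.d0 v0 y0 _ (ph_bd N _ _)).2,
      Finset.mul_sum, Finset.sum_mul, map_sum]
    rw [Finset.sum_comm]
    refine Finset.sum_congr rfl fun j _ => Finset.sum_congr rfl fun r _ => ?_
    rw [Real.sqrt_div v0.le, Real.rpow_neg v0.le, ← Real.sqrt_eq_rpow]
    have : (√τ.im : ℂ) ≠ 0 := ofReal_ne_zero.2 (Real.sqrt_pos.2 v0).ne'
    simp only [map_mul, map_div₀, map_pow, conj_ofReal, map_natCast, ofReal_mul, ofReal_div,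
      ofReal_pow, ofReal_natCast, ofReal_inv]
    field_simp
  · have j := fun r => ((h.tf r).int hτ.2.2).choose_spec τ le_rfl
    beta_reduce
    rw [integral_finsetSum _ fun r _ => (j r).1.mul_const _, Finset.sum_mul]
    simp only [FK, ← fun r => (j r).2.2, FF, integral_mul_const, mul_assoc (integral _ _)]

/-- the kernel, with all constants -/
theorem ker0 {s : Finset ℍ} (h : Dat N δ d β) (hs : Reps (CongruenceSubgroup.Gamma0 N) (Bd N δ d β) s) :
    Lgs (N := N) δ d (ka δ d β) ∧ ∃ ℓ : Cf N → ℂ,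
    (∀ a x c (Φ : ℍ → ℂ), Harm δ a x c → Off δ d c →
      (∀ z ∈ s, Tendsto (reg δ a x z) atTop (𝓝 (Φ z))) →
      evd s (Bd N δ d β) Φ = pr (lg (ka δ d β)) c + ℓ x) ∧ ℓ 0 = 0 ∧
    ∀ x, IsS δ x → ∀ (G : ℍ → ℂ) (a : ℕ → ℤ) (k : ℂ), (P004N.QE G fun n => a n) →
      (∀ z, shi (δ * d) (β : ZMod (2 * N)) x z = k * G z) → ℓ x = -conj (k * (eps δ * gs δ) *
        (∫ y in Ioi (0 : ℝ), tw a δ (I * y) * (Real.log y : ℝ)) / (√(N * (δ * d)) : ℝ)) := by
  obtain ⟨β', t, w, k1, k2, k3, k4⟩ := kl N δ d _ 3 β h (dvd_pow_self _ three_ne_zero) dvd_rfl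
  have N0 := NeZero.pos N
  have d0 : 0 < δ := zero_lt_one.trans h.ok.one
  have m8 := h.m8
  have D : Dd N δ d ((2 * N * δ) ^ 3) β β' := by
    obtain ⟨Q, ⟨hQ, -⟩, -⟩ := k3 (1, 1, (d + 1) / 4) (by simp only [disc]; omega) one_pos
    obtain ⟨e, -, ⟨a, ha⟩, ⟨b, hb⟩, ⟨c, hc⟩, -⟩ := k2 Q hQ
    refine ⟨h, ⟨(2 * N) ^ 2, by ring⟩, ⟨by positivity, h.sq, by omega, by omega,
      (Nat.isCoprime_iff_coprime.1 (by exact_mod_cast Hd.cop_d h)).pow_left 3,
      a * Q.2.2 - b * Q.2.1 + ((2 * N * δ) ^ 3 : ℕ) * b ^ 2, ?_⟩, k1⟩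
    rw [disc] at e
    generalize (((2 * N * δ) ^ 3 : ℕ) : ℤ) = M at *
    linear_combination e + 4 * Q.2.2 * ha - (β' + Q.2.1 - 2 * M * b) * hb
  refine ⟨D.lgs, fun x => -pet (FK δ d β) (fn x), fun a x c Φ H o hΦ => ?_,
    by simp [pet, fn], fun x hx G a k e hk => congrArg Neg.neg (fux D hx e hk)⟩
  refine tendsto_nhds_unique (tendsto_finsetSum _ fun z hz => (hΦ z hz).const_mul _)
    ((by_lim (kp phi h.ok) (fun r => (D.tf r).ser) (fun r l v k => ?_) (fun τ => D.law) H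
      (D.lim H o)).congr fun v => ?_)
  · obtain ⟨n, e, i, -⟩ := D.sup r l v k
    simpa only [(D.ex e).1, (D.ex e).2, true_and] using i
  have n : 0 < N * δ := mul_pos N0 d0
  obtain ⟨p1, -, -, -, p5, -⟩ := phi N δ h.ok
  simp only [reg, ← integral_const_mul]
  refine Eq.trans (setIntegral_congr_fun (Sk.compact_FT v).measurableSet fun τ k => ?_)
    (integral_finsetSum _ fun z _ => Integrable.const_mul (ContinuousOn.integrableOn_compact
    (Sk.compact_FT v) (ContinuousOn.mono (s := UH) ((continuousOn_finsetSum _ fun r _ =>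
      ((qs_diff (k := id) (H.sum r)).continuousOn.add (nh_c1 H.s r).continuousOn).mul
        (th0_cont n z.im_pos (ph_bd N δ r))).div (by fun_prop) fun τ hτ =>
          pow_ne_zero 2 (ofReal_ne_zero.2 (ne_of_gt hτ))) fun τ k => k.1.2.2)) _)
  have p : 0 < τ.im := k.1.2.2
  simp only [D.lo ⟨k2, k3⟩ p, Finset.sum_div, Finset.mul_sum]
  rw [Finset.sum_comm]
  refine Finset.sum_congr rfl fun r _ => ?_
  have := k4 s hs ℂ (fun z => th0 (N * δ) (fun l => ph N δ r l) τ z) fun γ hγ z => by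
    simpa only [p5 r _ γ hγ] using (((fta γ).2.2.2.2.2 _ _ n (p1 r)).2.2 τ z).1
  simp only [zsmul_eq_mul] at this
  simp only [mul_div_assoc, mul_left_comm _ (hf a x r τ), ← Finset.mul_sum]
  simp only [← mul_div_assoc, ← Finset.sum_div, this, TH, th_twi n d0 p (w _).im_pos _ (ph_bd N δ r)]
  congr 2
  refine Finset.sum_congr rfl fun Q _ => Finset.sum_congr rfl fun j _ => ?_
  rw [UpperHalfPlane.ofComplex_apply_of_im_pos (by
    simpa using div_pos (w Q).im_pos (Nat.cast_pos.2 d0))]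

end Vale.Agent.P014T.Zd.Kd
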