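import Vale.Agent.P014T.Zd.St
import Vale.Agent.P014T.Zd.Ker0

/-! # P014T, block GZD: row KERD -/

namespace Vale.Agent.P014T.Zd

/-- **row KERD** -/
theorem kerd : KERD := by
  intro N _ δ d β s h hs
  obtain ⟨k, ℓ, h1, h2, h3⟩ := Kd.ker0 h hs
  refine ⟨_, ℓ, k, h1, h2, fun x hx G a c e hk => ?_⟩
  rw [h3 x hx G a c e.qe hk, L1d, mul_assoc (N : ℝ), ← mul_assoc c]

end Vale.Agent.P014T.Zd
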