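import Vale.Agent.P014T.Zd.Bdx
import Vale.Agent.P014T.Zd.Glue
import Vale.Agent.P014T.Zd.Ker
import Vale.Agent.P014T.Zd.Aro
import Vale.Agent.P014T.Z.All

/-! # P014T, block Zd: the closed term -/

namespace Vale.Agent.P014T.Zd

/-- **the formula of Gross and Zagier for the point of the frame** -/
theorem gzf_all : GZF := gzf (gzd Z.degv arod (maind kerd))

end Vale.Agent.P014T.Zd
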