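import Vale.Agent.P014T.Zd.Exp
import Vale.Agent.P004K.All
import Vale.Agent.P004F.Top
import Vale.Agent.P004Z.Ar.Unf

/-! # P014T, block Zd: the Heegner point of the frame on the upper half plane -/

set_option linter.all false

open UpperHalfPlane CongruenceSubgroup NumberField Filter Topology
open scoped MatrixGroups NumberTheorySymbols Classical

noncomputable section

namespace Vale.Agent.P014T.Zd

namespace Bx

section
open P004Z P004Z.Ar P004N P004N.H461 Vale.Agent.P027M.ES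

/-- the parametrisation with given data -/
theorem pz_of {N : ℕ} {G : ℍ → ℂ} {a : ℕ → ℤ} {A B : ℤ} {w : ℕ} {Λ : Submodule ℤ ℂ} {I : ℍ → ℂ}
    {x y} (h : RN N G a) (par : EF.Par N a A B w Λ I x y) :
    ∃ D : Pz N a, D.A = A ∧ D.B = B ∧ D.w = w ∧ D.Λ = Λ ∧ D.I = I := by
  have : NeZero N := ⟨h.pos.ne'⟩
  obtain ⟨ε, nf⟩ := nf_of_rn h
  have w0 : (w : ℂ)⁻¹ ≠ 0 := inv_ne_zero (Nat.cast_ne_zero.2 par.wpos.ne')
  have P0 := EF.prim_Pr h.qe (by simp [h.zero])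
  have P := P0.smul (w : ℂ)⁻¹
  have eI : (w : ℂ)⁻¹ • Pr (fun n => (a n : ℂ)) = I :=
    funext fun τ => (div_eq_inv_mul _ _).symm.trans (par.I_eq τ).symm
  have per : ∀ γ ∈ Gamma0 N, ∃ z ∈ Λ, ∀ τ, I (γ • τ) - I τ = z := fun γ k =>
    have l : ∀ τ, I (γ • τ) - I τ = I (γ • UpperHalfPlane.I) - I UpperHalfPlane.I := fun τ => by
      simp only [← eI, Pi.smul_apply, ← smul_sub, P0.period (h.s2.slash γ k) τ UpperHalfPlane.I]
    ⟨_, (par.per _).2 ⟨γ, k, l⟩, l⟩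
  have lim : ∀ γ : SL(2, ℤ), ∃ c, Tendsto (fun z => I (γ • z)) atImInfty (𝓝 c) := fun γ => by
    obtain ⟨n, hn, hw⟩ := Inj.exists_width (Gamma0 N)
    obtain ⟨φ, an, e⟩ := EF.Co.cusp_fn h.s2 P0 hn (hw γ)
    simp only [← eI, Pi.smul_apply, e]
    exact ⟨_, (an.continuousAt.tendsto.comp
      (qParam_tendsto_atImInfty (Nat.cast_pos.2 hn))).const_smul _⟩
  obtain ⟨Λ', L, e2, e3, ex, sj, ker, xy⟩ := P027H.exists_unif (A : ℂ) (B : ℂ)
    (by exact_mod_cast par.disc)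
  obtain rfl := L.ext_g par.lat (e2.trans par.g2_eq.symm) (e3.trans par.g3_eq.symm)
  rw [eI] at P
  refine ⟨⟨A, B, w, Λ', I, x, y, ex, par, P.hol, fun γ k τ => ?_, fun c e => ?_, lim, ?_, sj, ker,
    fun u k => ?_⟩, rfl, rfl, rfl, rfl, rfl⟩
  · obtain ⟨z, k, e⟩ := per γ k
    rwa [e]
  · exact EF.nf_ne nf ((smul_eq_zero.1 (P.eq_zero (congrFun e))).resolve_left w0)
  · obtain ⟨ι, _, r, hr⟩ := EF.Qt.reps (Gamma0 N)
    choose c hc using lim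
    refine ⟨(Set.finite_range fun i => c (r i)).toFinset, fun t k γ c' l m => ?_⟩
    obtain ⟨i, δ, d, rfl⟩ := hr γ
    obtain ⟨z, d, e⟩ := per δ d
    have := tendsto_nhds_unique l (((hc (r i)).const_add z).congr fun τ => by
      rw [mul_smul, ← e (r i • τ), sub_add_cancel])
    refine k (c (r i)) (by simp) ?_
    convert sub_mem d m using 1
    rw [this]
    ring
  · obtain ⟨k1, k2⟩ := xy u
    have k3 := mt (ker u).1 k
    generalize ex u = Q at k1 k2 k3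
    rcases Q with _ | ⟨x, y, n⟩
    · exact absurd rfl k3
    · obtain rfl : x = _ := k1
      obtain rfl : y = _ := eq_div_of_mul_eq two_ne_zero ((mul_comm _ _).trans k2)
      exact ⟨n, rfl⟩

theorem un_ex {N : ℕ} {a : ℕ → ℤ} (D : Pz N a) {u : ℂ} {y : P004M.TE.Pt D.A D.B}
    (h : P004K.Un D.Λ u y) : H.iE y = D.ex u := by
  by_cases k : u ∈ D.Λ
  · rw [h.1 k, map_zero, (D.ker u).2 k]
  · obtain ⟨p, q, n, rfl, e1, e2⟩ := h.2 k
    obtain ⟨n', e⟩ := D.xy u k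
    rw [e]
    rw [H.iE, P004M.TE.pm_some]
    congr 1

end

open Vale.Agent.P022 P027H P027M.M P004K P004K.Hg
open P004Z (Dat Bd eps gs Reps)
open P004Z.Hd
open P004M.TE (Pt ga)

/-- the divisor `Bd` is the signed orbit -/
theorem orb {K : Type} [Field K] [NumberField K] {j : K →+* Qb} (q : Iq K) {N : ℕ} [NeZero N]
    {δ δ' : ℕ} {β : ℤ} {θ η : 𝓞 K} {I : Ideal (𝓞 K)} (d : Dat N δ δ' β) (h : θ ^ 2 = -(δ' : 𝓞 K))
    (hi : 0 < (JJ j θ).im) (hn : Cn N I) (hη : η ∈ I) (e : 2 * η = θ - β) {s : GQ → ℤ}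
    {T : Finset GQ} (hs : ∀ g (u : Qb), u ^ 2 = eps δ * δ → g u = s g * u)
    (hT1 : ∀ g ∈ T, g ∈ GK j) (hT2 : ∀ g ∈ GK j, ∃! h, h ∈ T ∧ g⁻¹ * h ∈ Hc j δ) :
    ∃ (τ : ℍ) (σ : GQ → ℂ ≃+* ℂ) (z : GQ → ℍ), Hp (JJ j) N I δ τ ∧ (∀ g, Ex (σ g) g) ∧
      (∀ g, Cj0 (σ g) N τ (z g)) ∧ Set.InjOn z T ∧ (∀ g ∈ T, Bd N δ δ' β (z g) = s g) ∧
      Reps (Gamma0 N) (Bd N δ δ' β) (T.image z) := by
  have hN := NeZero.pos N
  have hC := cj0
  have hT := trx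
  obtain ⟨ω, B0⟩ := bs Rc.iq q j
  obtain ⟨y, n, D⟩ := ex_dt B0 d h hi e
  obtain ⟨⟨τ, hp⟩, -, -, H, -⟩ := y_hg1 K j q N δ I hN D.pos d.ok.cop.symm hn
  have b0 := (y_bd0 K j q N δ δ' β θ η I d h hi hn hη e τ hp).2
  choose σ hσ using ex_ex
  choose z hz using fun g => (hC (σ g) N hN).1 τ
  have k1 : ∀ g ∈ T, ∀ g' ∈ T, Cj0 (σ g) N τ (z g') → g = g' := fun g hg g' hg' c => by
    have := (H τ _ _ (mul_mem (inv_mem (hT1 g' hg')) (hT1 g hg)) hp ((hσ g').inv.mul (hσ g))).2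
      ((hC _ N hN).2.2.2.2.1 _ _ _ _ c ((hC _ N hN).2.2.2.1 _ _ (hz g')))
    exact (hT2 g' (hT1 g' hg')).unique ⟨hg, this⟩ ⟨hg', by simp⟩
  obtain ⟨u, hu⟩ : ∃ u, io u = gs δ := ex_io (IsAlgebraic.of_pow two_pos (by
    rw [P004Z.Gq.gs_sq d.ok.odd d.ok.sq]
    exact_mod_cast isAlgebraic_intCast (R := ℚ) (A := ℂ) (eps δ * δ)))
  refine ⟨τ, σ, z, hp, hσ, hz, fun g hg g' hg' c => k1 g hg g' hg' (c ▸ hz g), fun g hg => ?_,
    Finset.forall_mem_image.2 fun g hg => (b0 _).2 ⟨g, hT1 g hg, _, hσ g, hz g⟩, fun v hv => ?_,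
    Finset.forall_mem_image.2 fun g hg => Finset.forall_mem_image.2 fun g' hg' γ hγ c =>
      congrArg z (k1 g hg g' hg' (((hC _ N hN).2.2.1 _ _ _ (hz g)).2 ⟨γ, hγ, c⟩))⟩
  · obtain ⟨⟨m, hm⟩, -⟩ := hT (σ g) δ D.pos
    have g0 : gs δ ≠ 0 := fun e => by
      have := P004Z.Gq.gs_sq d.ok.odd d.ok.sq
      rw [e, zero_pow two_ne_zero, eq_comm, mul_eq_zero, Int.cast_eq_zero, Nat.cast_eq_zero] at this
      have e2 := eps_sq δ
      have := D.pos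
      rcases ‹_ ∨ _› with p | p
      · simp [p] at e2
      · omega
    have := gs_cy d.ok.odd d.ok.sq hm
    rw [← hu, hσ, hs g u (P027M.M.io_inj (by
      rw [map_pow, hu, P004Z.Gq.gs_sq d.ok.odd d.ok.sq, map_mul, map_intCast, map_natCast])),
      map_mul, map_intCast, hu] at this
    rw [D.bd_cj hT hC hn hη hp ((hσ g).JJ (hT1 g hg)) hm (hz g)]
    exact_mod_cast (mul_right_cancel₀ g0 this).symm
  · obtain ⟨g, hg, σ', ex, c⟩ := (b0 v).1 hv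
    obtain ⟨g', ⟨m1, m2⟩, -⟩ := hT2 g hg
    have c1 := (hC _ N hN).2.2.2.2.1 _ _ _ _ ((H τ _ _ (mul_mem (inv_mem hg) (hT1 g' m1)) hp
      (ex.inv.mul (hσ g'))).1 m2) c
    rw [mul_inv_cancel_left] at c1
    obtain ⟨γ, hγ, p⟩ := ((hC _ N hN).2.2.1 _ _ _ c1).1 (hz g')
    exact ⟨γ, hγ, p ▸ Finset.mem_image_of_mem z m1⟩

end Bx

open Bx P004F

/-- **the formula for the point of the frame** -/
theorem gzf (h : GZD) : GZF := fun e b ε c V T al hε hc pl hT => by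
  have : NeZero e.N := ⟨e.rn.pos.ne'⟩
  have o := e.ok
  obtain ⟨τ, σ, z, hp, hσ, hz, inj, val, rep⟩ := orb b.iq b.dat b.th b.im b.ch.lev.cn b.mem b.eta
    (s := sd (P004T.ds e.δ)) (T := T)
    (fun g u hu => sd_sqrt _ g u (by rw [hu, P004T.ds]; push_cast; rfl)) hT.1 hT.2
  have un := fun g => b.hg e.δ (zero_lt_one.trans o.one) o.cop.symm g _ τ _ (hσ g) hp (hz g)
  obtain ⟨⟨A, B, w, Λ, I, x, y, ex, par, p1, p2, p3, p4, p5, p6, p7, p8⟩, rfl, rfl, rfl, rfl, rfl⟩ :=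
    pz_of e.rn e.par
  refine h e.N e.G e.a ⟨_, _, _, _, _, x, y, ex, par, p1, p2, p3, p4, p5, p6, p7, p8⟩ e.δ b.δ' b.β ε
    _ c V _ e.rn b.dat al hε rep hc pl ?_
  rw [Z.yK, Finset.sum_image inj, pK, map_sum]
  exact Finset.sum_congr rfl fun g hg => by
    rw [map_zsmul, val g hg]
    exact congrArg _ (un_ex ⟨_, _, _, _, _, x, y, ex, par, p1, p2, p3, p4, p5, p6, p7, p8⟩ (un g))

end Vale.Agent.P014T.Zd
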