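import Vale.Agent.P014T.Gx.Glu
import Vale.Agent.P004Z.Th.Gau
import Vale.Agent.P004Z.Hd.Kl
import Vale.Agent.P004Z.Bo.Gu

/-! # P014T, exact Gross-Zagier at `δ > 1`: the linear algebra of the glue -/

set_option autoImplicit false
set_option linter.all false

open Complex UpperHalfPlane MeasureTheory Filter Topology CongruenceSubgroup
open scoped Real MatrixGroups ComplexConjugate NumberTheorySymbols

noncomputable section

namespace Vale.Agent.P014T.Zd.Li

open P004N (S2 QE TE RN)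
open P004Z P004Z.Lf P004Z.Gl P014T.Gx

variable {N : ℕ} [NeZero N] {δ δ' : ℕ} {β : ℤ} {G : ℍ → ℂ} {a : ℕ → ℤ}

theorem du (h : Dat N δ δ' β) : Dual δ (δ * δ') (β : ZMod (2 * N)) := (gau_row N δ δ' β h).1

theorem jj (h : Dat N δ δ' β) {l : ℕ} (hl : l.Prime) (h1 : ¬ l ∣ 2 * N * δ) :
    J(l | δ) * J(-((δ : ℤ) * (δ * δ' : ℕ)) | l) = J(l | (δ * δ' : ℕ)) := by
  have o : Odd l := hl.odd_of_ne_two fun q => h1 (q ▸ (dvd_mul_right 2 N).mul_right δ)
  rw [jacobiSym.mul_right' _ h.ok.sq.ne_zero h.sq.ne_zero, ← (gau_row N δ δ' β h).2.2.2.2.2.1 l o,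
    show -((δ : ℤ) * (δ * δ' : ℕ)) = δ ^ 2 * -(δ' : ℤ) by push_cast; ring, jacobiSym.mul_left,
    jacobiSym.pow_left, jacobiSym.sq_one (by
      rw [Int.gcd_natCast_natCast]
      exact (hl.coprime_iff_not_dvd.2 fun q => h1 (q.mul_left _)).symm), one_mul]

theorem mt (h : Dat N δ δ' β) : Mt N δ (δ * δ') := fun l hl h1 =>
  jj h hl fun q => h1 (q.mul_right _)

/-- the Shimura lift commutes with `T_l`, also for `l ∣ δ'` -/
theorem sht (h : Dat N δ δ' β) {l : ℕ} (hl : l.Prime) (h1 : ¬ l ∣ 2 * N * δ) (ρ : ZMod (2 * N))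
    (x : Cf N) : shc (δ * δ') ρ (TT δ l x) = Tc l (shc (δ * δ') ρ x) := by
  funext j
  have hco : l.Coprime (2 * N) := hl.coprime_iff_not_dvd.2 fun q => h1 (q.mul_right _)
  have h2 := jj h hl h1
  have sq := (du h).ok1.sq
  generalize δ * δ' = d at h2 sq ⊢
  have : NeZero l := ⟨hl.ne_zero⟩
  have e : ∀ y : Cf N, shc d ρ y = fun j => ∑ i ∈ j.divisors, (J((j / i : ℕ) | d) : ℂ) *
      y (d * i ^ 2) (ρ⁻¹ * d * i) := fun y => funext fun j =>
    Nat.sum_divisorsAntidiagonal fun a b => (J(b | d) : ℂ) * y (d * a ^ 2) (ρ⁻¹ * d * a)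
  rw [e, e, ← Wl.conv hl (fun n => (J(n | d) : ℂ)) (fun i => x (d * i ^ 2) (ρ⁻¹ * d * i))
    (fun a b => by push_cast [jacobiSym.mul_left]; rfl)]
  refine Finset.sum_congr rfl fun i _ => ?_
  congr 1
  rw [TT]
  congr 1
  · congr 1
    · congr 1
      · ring
      · push_cast
        ring
    · have e1 : J(-((δ : ℤ) * (d * i ^ 2 : ℕ)) | l) = J(-((δ : ℤ) * d) | l) * J(i | l) ^ 2 := by
        rw [← jacobiSym.pow_left, ← jacobiSym.mul_left]
        congr 1
        push_cast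
        ring
      rw [e1, ← mul_assoc, h2]
      split_ifs with h
      · rw [(jacobiSym.eq_zero_iff_not_coprime (a := i)).2]
        · simp
        · rw [Int.gcd_natCast_natCast]
          exact fun e => hl.coprime_iff_not_dvd.1 (Nat.Coprime.symm e) h
      · rw [jacobiSym.sq_one, mul_one]
        rw [Int.gcd_natCast_natCast]
        exact (hl.coprime_iff_not_dvd.2 h).symm
  · by_cases k : l ∣ i
    · obtain ⟨k, rfl⟩ := k
      rw [if_pos ⟨d * k ^ 2, by ring⟩, if_pos (dvd_mul_right _ _),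
        Nat.mul_div_cancel_left _ hl.pos, show d * (l * k) ^ 2 = l ^ 2 * (d * k ^ 2) by ring,
        Nat.mul_div_cancel_left _ (pow_pos hl.pos 2)]
      congr 2
      push_cast
      linear_combination (ρ⁻¹ * d * k) * ZMod.coe_mul_inv_eq_one l hco
    · rw [if_neg k, if_neg]
      intro e
      exact hl.not_isUnit (sq l (pow_two l ▸
        ((hl.coprime_iff_not_dvd.2 k).pow 2 2).dvd_of_dvd_mul_right e))

/-- the Shintani lift of a newform is an eigenform away from `2 N δ` -/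
theorem sn_eig (h : Dat N δ δ' β) (hG : RN N G a) :
    Eig δ (2 * N * δ) a (sn (δ * δ') (β : ZMod (2 * N)) G) := by
  have u := du h
  obtain ⟨hs, adj⟩ := ws_row N δ _ _ G u hG.s2
  obtain ⟨-, -, sa⟩ := pet2_all N hG.pos
  have ok := u.ok
  intro l hl h2
  have h3 : ¬ l ∣ N := fun e => h2 ((e.mul_left _).mul_right _)
  refine Wl.eq_of_B g2.2.1 ok (a l) hs (hecke N _ l ok hl h2 _ hs) fun y hy => ?_
  have hy' := hecke N _ l ok hl h2 y hy
  rw [B, ← self g2.2.1 N _ l ok hl h2 y _ hy hs, adj _ hy', B, adj _ hy]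
  have q1 := (shix u hy').2
  rw [sht h hl h2] at q1
  have q2 : QE ((a l : ℂ) • G) (Tc l fun n => (a n : ℂ)) := by
    have : (Tc l fun n => (a n : ℂ)) = (a l : ℂ) • fun n => (a n : ℂ) :=
      funext fun n => hG.te l hl h3 n
    rw [this]
    exact P004N.H461.QE.smul hG.qe _
  have q3 : ∀ (k : ℂ) c, (fun j => k * Tc l c j) = Tc l fun j => k * c j := fun k c =>
    funext fun n => by
      simp only [Tc]
      split_ifs <;> ring
  rw [sa l _ G _ _ _ _ hl h3 (shix u hy).1 hG.s2 (shix u hy).2 hG.qe (q3 _ _ ▸ q1) q2]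
  simpa using Wl.pet2_smul N 1 (a l) (shi (δ * δ') (β : ZMod (2 * N)) y) G

theorem eig_comb {S : ℕ} (k : ℂ) {x y : Cf N} (hx : Eig δ S a x) (hy : Eig δ S a y) :
    Eig δ S a (k • x + y) := fun l hl h1 => by
  funext n r
  have h2 := congrFun (congrFun (hx l hl h1) n) r
  have h3 := congrFun (congrFun (hy l hl h1) n) r
  simp only [TT, Pi.add_apply, Pi.smul_apply, smul_eq_mul] at h2 h3 ⊢
  split_ifs at h2 h3 ⊢ <;> linear_combination h3 + k * h2

/-- an eigenform whose products read off the coefficient is the Shintani lift -/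
theorem keyx (h : Dat N δ δ' β) (hG : RN N G a) {x : Cf N} (hx : IsS δ x)
    (he : Eig δ (2 * N * δ) a x) {t : ℂ} (q : ∀ y, IsS δ y → Eig δ (2 * N * δ) a y →
      B y x = t * y (δ * δ') ((β : ZMod (2 * N))⁻¹ * (δ * δ' : ℕ))) :
    x = conj (t / (cS N δ (δ * δ') * pet2 N G G)) • sn (δ * δ') (β : ZMod (2 * N)) G := by
  have u := du h
  have := hG.pos
  have := h.ok.one
  have hs := sn_s u hG.s2
  set k := conj (t / (cS N δ (δ * δ') * pet2 N G G)) with hk
  have hz := Wl.isS_comb (-k) hs hx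
  have ez := eig_comb (-k) (sn_eig h hG) he
  have h1 : B ((-k) • sn (δ * δ') (β : ZMod (2 * N)) G + x)
      ((-k) • sn (δ * δ') (β : ZMod (2 * N)) G + x) = 0 := by
    have n := cS_ne u
    have n' := pet2_ne hG
    rw [B_add g2.2.1 u.ok (Wl.isS_smul _ hs) hx hz, B_smul, B_conj _ x, q _ hz ez,
      B_conj _ (sn _ _ G), sn_B u (mt h) hG (by positivity) hz ez, hk, ← map_neg, ← map_mul,
      ← map_add, map_eq_zero]
    field_simp
    ring
  have h2 := g2.2.1 N δ u.ok _ hz |>.2.2.2 h1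
  rw [_root_.neg_smul, neg_add_eq_zero] at h2
  exact h2.symm

/-- the eigenvalue -/
abbrev lm (a : ℕ → ℤ) {S : ℕ} (P : FreeAlgebra ℤ (PA S)) : ℤ :=
  FreeAlgebra.lift ℤ (fun l : PA S => a l.1) P

theorem pr_act (ok : Ok N δ) {x : Cf N} (hx : IsS δ x) (he : Eig δ (2 * N * δ) a x)
    (P : FreeAlgebra ℤ (PA (2 * N * δ))) : ∀ (c : PP N) (μ : ℂ),
      (∀ y, IsS δ y → pr y c = μ * B y x) →
      ∀ y, IsS δ y → pr y (act δ P c) = (lm a P : ℤ) * μ * B y x := by
  induction P with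
  | grade0 k =>
    intro c μ h y hy
    rw [act, lm, AlgHom.commutes, AlgHom.commutes, eq_intCast, eq_intCast,
      Module.End.intCast_apply, ← Int.cast_smul_eq_zsmul ℂ, pr_smul, h y hy, mul_assoc, Int.cast_id]
  | grade1 l =>
    intro c μ h y hy
    rw [act, lm, FreeAlgebra.lift_ι_apply, FreeAlgebra.lift_ι_apply, pr_tt,
      h _ (hecke N δ l.1 ok l.2.1 l.2.2 y hy), B_tt (self g2.2.1) ok hx he hy l.2.1 l.2.2 l.2.2]
    ring
  | mul P Q h h' =>
    intro c μ e y hy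
    rw [act, lm, map_mul, map_mul]
    refine (h _ _ (h' c μ e) y hy).trans ?_
    push_cast
    ring
  | add P Q h h' =>
    intro c μ e y hy
    rw [act, lm, map_add, map_add, LinearMap.add_apply, pr_add, h c μ e y hy, h' c μ e y hy]
    push_cast
    ring

/-- forms supported on the squares and on the non split indices are orthogonal to eigenforms -/
theorem tr (h : Dat N δ δ' β) (hG : RN N G a) {x y : Cf N} (hx : IsS δ x)
    (he : Eig δ (2 * N * δ) a x) (hy : IsS δ y) {p : ℕ} (hp : p.Prime) (h1 : ¬ p ∣ 2 * N * δ)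
    (h3 : J(-(δ' : ℤ) | p) ≠ 1) (q : ∀ (n : ℕ) r, ¬ IsSquare (δ * δ' * n) →
      J(-((δ : ℤ) * n) | p) = 1 → y n r = 0) : B y x = 0 :=
  orth (self g2.2.1) lemv h.ok hx he hy hp h1
    (triv N G a hG p hp fun e => h1 ((e.mul_left 2).mul_right δ))
    fun n r e => q n r (fun s => not_one hp h.sq (fun e => h1 (e.mul_left _)) h3 s e) e

/-- a principal part off the squares with a given eigenform as shadow -/
theorem ex_c (h : Dat N δ δ' β) (hG : RN N G a) {x : Cf N} (hx : IsS δ x)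
    (he : Eig δ (2 * N * δ) a x) : ∃ c ∈ MM N δ δ', ∀ y, IsS δ y → pr y c = B y x := by
  have := hG.pos
  have := h.ok.one
  obtain ⟨p, hp, h1, h2⟩ := (gau_row N δ δ' β h).2.2.2.2.2.2 (2 * N * δ) (by positivity)
  exact Gl.ex_c g2.1 g2.2.1 h.ok hx fun y hy q =>
    tr h hG hx he hy hp h1 (by rw [h2]; decide) fun n r e _ => q n r e

/-- **the finite parts vanish** -/
theorem fin0 (h : Dat N δ δ' β) (hG : RN N G a) {κ : ℕ → ℕ → ZMod (2 * N) → ℚ}
    (hκ : Lgs δ δ' κ) (h0 : ∀ c, WH δ c → Off δ δ' c → pr (lg κ) c = 0) {x : Cf N}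
    (hx : IsS δ x) (he : Eig δ (2 * N * δ) a x) {c : PP N} (hc : c ∈ MM N δ δ') {μ : ℂ}
    (hp : ∀ y, IsS δ y → pr y c = μ * B y x) : pr (lg κ) c = 0 := by
  obtain ⟨T, hT, -, e⟩ := pr_lg hκ c
  refine e.trans (Finset.sum_eq_zero fun p pp => mul_eq_zero_of_left ?_ _)
  replace pp := hT p pp
  by_cases s : Spl δ' p
  · simp [pr, Finsupp.sum, hκ.spl p _ _ s]
  obtain ⟨y, hy, y1, y2⟩ := serre_off g2.2.2.1 g2.2.2.2.2.1 h.ok (δ' := δ')
    (wh_zero (by simpa using Wl.isS_smul 0 hx)) (fun n r => (κ p n r : ℂ))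
    fun c hc ho => pr_lg_zero hκ (WH.int hc) (h0 c hc ho) p
  rw [Spl, not_or] at s
  rw [← y1 _ (mm_adm hc) (mm_off hc), hp y hy, tr h hG hx he hy pp (fun e => ?_) s.2, mul_zero]
  · intro n r e e'
    exact y2 n r e (by rw [hκ.van p n r e', Rat.cast_zero])
      (by rw [hκ.van p n _ e', Rat.cast_zero])
  · rw [mul_assoc] at e
    exact (pp.dvd_mul.1 e).elim
      (fun e => s.1 ((Nat.prime_dvd_prime_iff_eq pp Nat.prime_two).1 e)) fun e =>
      s.2 (h.spl p pp s.1 e)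

end Vale.Agent.P014T.Zd.Li
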