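import Vale.Agent.P014T.Z.St

/-! # P014T, block Zd (Gross-Zagier for the twisted Heegner point): the rows -/

open Complex UpperHalfPlane MeasureTheory Filter Topology CongruenceSubgroup
open scoped Real MatrixGroups ComplexConjugate NumberTheorySymbols Classical

noncomputable section

namespace Vale.Agent.P014T.Zd

open P004Z P004Z.Ar
open P004N (S2 QE RN ALw EF)
open P004Z.Lf (sn)
open P004Z.H (PlC iE)
open Z (Dg Cov ix L0 Hp lC yK)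
open Vale.Agent.P004M.TE

/-- `L'(1) / (2 π)` of the twist if `L(1) = 0` -/
def L1d (a : ℕ → ℤ) (δ : ℕ) : ℂ :=
  ∫ y in Set.Ioi (0 : ℝ), tw a δ (Complex.I * y) * (Real.log y : ℝ)

/-- Hecke polynomials -/
abbrev FA (N δ : ℕ) : Type := FreeAlgebra ℤ (PA (2 * N * δ))

/-- the eigenvalue -/
abbrev lmb {N δ : ℕ} (a : ℕ → ℤ) (P : FA N δ) : ℤ :=
  FreeAlgebra.lift ℤ (fun l : PA (2 * N * δ) => a l.1) P

/-- projectors -/
def Pj (N δ : ℕ) (a : ℕ → ℤ) (P : FA N δ) : Prop := ∀ g c, S2 N g → QE g c →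
  ∃ κ : ℂ, FreeAlgebra.lift ℤ (fun l : PA (2 * N * δ) => TcL l.1) P c = fun n => κ * a n

/-- the generating series of an additive map -/
def xd {N : ℕ} {a : ℕ → ℤ} (D : Pz N a) (δ : ℕ) (l : ℂ →+ ℂ) : Cf N := fun n r =>
  ws (4 * N) (cs (Zd N δ n r)) (l ∘ D.I)

/-- the kernel -/
def KERD : Prop := ∀ (N : ℕ) [NeZero N] (δ d : ℕ) (β : ℤ) (s : Finset ℍ), Dat N δ d β →
  Reps (Gamma0 N) (Bd N δ d β) s →
  ∃ (κ : ℕ → ℕ → ZMod (2 * N) → ℚ) (ℓ : Cf N → ℂ), Lgs δ d κ ∧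
    (∀ a x c (Φ : ℍ → ℂ), Harm δ a x c → Off δ d c →
      (∀ z ∈ s, Tendsto (reg δ a x z) atTop (𝓝 (Φ z))) →
      evd s (Bd N δ d β) Φ = pr (lg κ) c + ℓ x) ∧ ℓ 0 = 0 ∧
    ∀ x, IsS δ x → ∀ G a (k : ℂ), EF N G a →
      (∀ z, shi (δ * d) (β : ZMod (2 * N)) x z = k * G z) →
      ℓ x = -conj (k * eps δ * gs δ * L1d a δ / (√(N * δ * d) : ℝ))

/-- the arithmetic side -/
structure Ao {N : ℕ} [NeZero N] {a : ℕ → ℤ} (D : Pz N a) (δ d : ℕ) (B : ℍ → ℤ) (s : Finset ℍ)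
    (V : ℕ → AbsoluteValue ℂ ℝ) (m : ℕ) (l : D.E →+ ℝ) (ι : ℕ → ℕ → ZMod (2 * N) → ℚ) : Prop where
  hp : Hp V (yK D B s) l
  lgs : Lgs δ d ι
  prin : ∀ c Φ, IsInt c → Off δ d c → Prin (Gamma0 N) (Zc δ c) → Green (Gamma0 N) (Zc δ c) Φ →
    evd s B Φ + pr (lg ι) c = 0
  ht : ∀ (P : FA N δ) c Φ Φ', Pj N δ a P → IsInt c → Off δ d c → Green (Gamma0 N) (Zc δ c) Φ →
    Green (Gamma0 N) (Zc δ (Gl.act δ P c)) Φ' →
    m * (evd s B Φ' + pr (lg ι) (Gl.act δ P c)) = -2 * lmb a P * pr (xd D δ (lC D l)) c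

def AROD : Prop := ∀ (N : ℕ) [NeZero N] G a (D : Pz N a) (δ d : ℕ) (β : ℤ) s V (m : ℕ),
  RN N G a → Dat N δ d β → Reps (Gamma0 N) (Bd N δ d β) s → PlC V → Dg D m →
  ∃ l ι, Ao D δ d (Bd N δ d β) s V m l ι

/-- the generating series of the heights is the Shintani lift -/
def MAIND : Prop := ∀ (N : ℕ) [NeZero N] G a (D : Pz N a) (δ d : ℕ) (β : ℤ) s V m l ι,
  RN N G a → Dat N δ d β → Reps (Gamma0 N) (Bd N δ d β) s →
  Ao D δ d (Bd N δ d β) s V m l ι →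
  (2 * (√(N * δ * d) : ℝ) * pet2 N G G) • xd D δ (lC D l) =
    (m * eps δ * conj (gs δ) * L1d a δ) • sn (δ * d) (β : ZMod (2 * N)) G

/-- **the formula on the upper half plane** -/
def GZD : Prop := ∀ (N : ℕ) G a (D : Pz N a) (δ d : ℕ) (β : ℤ) (ε : ℝ) s (c : ℝ) V y, RN N G a →
  Dat N δ d β → ALw N N G ε → ε * (eps δ * J(N | δ) : ℤ) = 1 →
  Reps (Gamma0 N) (Bd N δ d β) s → Cov D.Λ c → PlC V → iE y = yK D (Bd N δ d β) s →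
  (2 * D.w ^ 2 * c * H.hh (Gl.vq V) y : ℝ) = π ^ 2 * δ * (√d : ℝ) * L1d a δ * L0 a (δ * d)

end Vale.Agent.P014T.Zd
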